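import Mathlib
import Vale.Agent.Lib.P162.Defs
import Vale.Agent.Lib.P162.RDefs
import Vale.Agent.Lib.P162.CVDefs
import Vale.Agent.Lib.P162.helper23.ProdTv
import Vale.Agent.Lib.P162.helper43.LumpTail
import Vale.Agent.Lib.P162.helper95.KmatBasic

/-!
Thorp shuffle, pool job P162-CV4 (a further copy, by helper78): the Cauchy-Schwarz induction
for the two-walker kernel. Qpow_psd, cs_prop, diag_cs and Qpow_two_le_of (the last one takes
the swap symmetry of the powers of the two-walker kernel as a hypothesis).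
-/

namespace Vale.Agent.Lib.P162.H78CV4

open Finset BigOperators

/-! Abstract finite-sum lemmas. -/

theorem sum4_comm {A B C D : Type*} [Fintype A] [Fintype B] [Fintype C] [Fintype D]
    (F : A → B → C → D → ℝ) :
    ∑ a, ∑ b, ∑ c, ∑ d, F a b c d = ∑ c, ∑ d, ∑ a, ∑ b, F a b c d := by
  calc ∑ a, ∑ b, ∑ c, ∑ d, F a b c d = ∑ a, ∑ c, ∑ b, ∑ d, F a b c d :=
        Finset.sum_congr rfl (fun a _ => Finset.sum_comm)
    _ = ∑ c, ∑ a, ∑ b, ∑ d, F a b c d := Finset.sum_comm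
    _ = ∑ c, ∑ a, ∑ d, ∑ b, F a b c d :=
        Finset.sum_congr rfl (fun c _ => Finset.sum_congr rfl (fun a _ => Finset.sum_comm))
    _ = ∑ c, ∑ d, ∑ a, ∑ b, F a b c d := Finset.sum_congr rfl (fun c _ => Finset.sum_comm)

theorem bil {Z : Type*} [Fintype Z] (m κ : Z → Z → ℝ) (ξ : Z → ℝ) (δ : ℝ) :
    ∑ q1, ∑ q1', ξ q1 * ξ q1' * (∑ q, ∑ q', m q q' * (κ q q1 * κ q' q1' / δ))
      = (∑ q, ∑ q', (∑ q1, ξ q1 * κ q q1) * (∑ q1', ξ q1' * κ q' q1') * m q q') / δ := by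
  have hL : ∑ q1, ∑ q1', ξ q1 * ξ q1' * (∑ q, ∑ q', m q q' * (κ q q1 * κ q' q1' / δ))
      = ∑ q1, ∑ q1', ∑ q, ∑ q', ξ q1 * ξ q1' * (m q q' * (κ q q1 * κ q' q1' / δ)) := by
    refine Finset.sum_congr rfl (fun q1 _ => Finset.sum_congr rfl (fun q1' _ => ?_))
    rw [Finset.mul_sum]
    exact Finset.sum_congr rfl (fun q _ => Finset.mul_sum _ _ _)
  have hR : (∑ q, ∑ q', (∑ q1, ξ q1 * κ q q1) * (∑ q1', ξ q1' * κ q' q1') * m q q') / δ
      = ∑ q, ∑ q', ∑ q1, ∑ q1', ξ q1 * ξ q1' * (m q q' * (κ q q1 * κ q' q1' / δ)) := by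
    rw [Finset.sum_div]
    refine Finset.sum_congr rfl (fun q _ => ?_)
    rw [Finset.sum_div]
    refine Finset.sum_congr rfl (fun q' _ => ?_)
    rw [Finset.sum_mul_sum, Finset.sum_mul, Finset.sum_div]
    refine Finset.sum_congr rfl (fun q1 _ => ?_)
    rw [Finset.sum_mul, Finset.sum_div]
    refine Finset.sum_congr rfl (fun q1' _ => ?_)
    ring
  rw [hL, hR]
  exact sum4_comm _

theorem e1 {Z V : Type*} [Fintype Z] [Fintype V] (m : V → Z → Z → ℝ) (κ : V → Z → Z → ℝ)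
    (δ : V → ℝ) (ξ : Z → ℝ) :
    ∑ q1, ∑ q1', ξ q1 * ξ q1' * (∑ q, ∑ q', ∑ v, m v q q' * (κ v q q1 * κ v q' q1' / δ v))
      = ∑ v, (∑ q, ∑ q', (∑ q1, ξ q1 * κ v q q1) * (∑ q1', ξ q1' * κ v q' q1') * m v q q')
          / δ v := by
  have h1 : ∀ q1 q1', ∑ q, ∑ q', ∑ v, m v q q' * (κ v q q1 * κ v q' q1' / δ v)
      = ∑ v, ∑ q, ∑ q', m v q q' * (κ v q q1 * κ v q' q1' / δ v) := by
    intro q1 q1'
    calc ∑ q, ∑ q', ∑ v, m v q q' * (κ v q q1 * κ v q' q1' / δ v)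
        = ∑ q, ∑ v, ∑ q', m v q q' * (κ v q q1 * κ v q' q1' / δ v) :=
          Finset.sum_congr rfl (fun q _ => Finset.sum_comm)
      _ = ∑ v, ∑ q, ∑ q', m v q q' * (κ v q q1 * κ v q' q1' / δ v) := Finset.sum_comm
  calc ∑ q1, ∑ q1', ξ q1 * ξ q1' * (∑ q, ∑ q', ∑ v, m v q q' * (κ v q q1 * κ v q' q1' / δ v))
      = ∑ q1, ∑ q1', ∑ v,
          ξ q1 * ξ q1' * (∑ q, ∑ q', m v q q' * (κ v q q1 * κ v q' q1' / δ v)) := by
        refine Finset.sum_congr rfl (fun q1 _ => Finset.sum_congr rfl (fun q1' _ => ?_))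
        rw [h1, Finset.mul_sum]
    _ = ∑ q1, ∑ v, ∑ q1',
          ξ q1 * ξ q1' * (∑ q, ∑ q', m v q q' * (κ v q q1 * κ v q' q1' / δ v)) :=
        Finset.sum_congr rfl (fun q1 _ => Finset.sum_comm)
    _ = ∑ v, ∑ q1, ∑ q1',
          ξ q1 * ξ q1' * (∑ q, ∑ q', m v q q' * (κ v q q1 * κ v q' q1' / δ v)) :=
        Finset.sum_comm
    _ = _ := Finset.sum_congr rfl (fun v _ => bil (m v) (κ v) ξ (δ v))

theorem e2 {Z V : Type*} [Fintype Z] [Fintype V] (a : V → Z → ℝ) (κ : V → Z → Z → ℝ)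
    (ξ : Z → ℝ) :
    ∑ q1, ξ q1 * (∑ q, ∑ v, a v q * κ v q q1)
      = ∑ v, ∑ q, (∑ q1, ξ q1 * κ v q q1) * a v q := by
  calc ∑ q1, ξ q1 * (∑ q, ∑ v, a v q * κ v q q1)
      = ∑ q1, ∑ v, ∑ q, ξ q1 * κ v q q1 * a v q := by
        refine Finset.sum_congr rfl (fun q1 _ => ?_)
        rw [Finset.sum_comm, Finset.mul_sum]
        refine Finset.sum_congr rfl (fun v _ => ?_)
        rw [Finset.mul_sum]
        refine Finset.sum_congr rfl (fun q _ => ?_)
        ring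
    _ = ∑ v, ∑ q1, ∑ q, ξ q1 * κ v q q1 * a v q := Finset.sum_comm
    _ = ∑ v, ∑ q, ∑ q1, ξ q1 * κ v q q1 * a v q :=
        Finset.sum_congr rfl (fun v _ => Finset.sum_comm)
    _ = _ := by
        refine Finset.sum_congr rfl (fun v _ => Finset.sum_congr rfl (fun q _ => ?_))
        rw [Finset.sum_mul]

/-- Weighted Cauchy-Schwarz inequality. -/
theorem wcs {ι : Type*} [Fintype ι] (r f g : ι → ℝ) (hf : ∀ i, 0 ≤ f i) (hg : ∀ i, 0 ≤ g i)
    (hr : ∀ i, r i ^ 2 ≤ f i * g i) : (∑ i, r i) ^ 2 ≤ (∑ i, f i) * ∑ i, g i := by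
  have h1 : ∀ i, |r i| ≤ Real.sqrt (f i) * Real.sqrt (g i) := by
    intro i
    rw [← Real.sqrt_mul (hf i), ← Real.sqrt_sq_eq_abs]
    exact Real.sqrt_le_sqrt (hr i)
  have h2 : |∑ i, r i| ≤ ∑ i, Real.sqrt (f i) * Real.sqrt (g i) :=
    (Finset.abs_sum_le_sum_abs _ _).trans (Finset.sum_le_sum (fun i _ => h1 i))
  have h3 : (∑ i, r i) ^ 2 ≤ (∑ i, Real.sqrt (f i) * Real.sqrt (g i)) ^ 2 := by
    rw [← sq_abs]
    exact pow_le_pow_left₀ (abs_nonneg _) h2 2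
  have h4 := Finset.sum_mul_sq_le_sq_mul_sq Finset.univ (fun i => Real.sqrt (f i))
    (fun i => Real.sqrt (g i))
  have h5 : ∑ i, Real.sqrt (f i) ^ 2 = ∑ i, f i :=
    Finset.sum_congr rfl (fun i _ => Real.sq_sqrt (hf i))
  have h6 : ∑ i, Real.sqrt (g i) ^ 2 = ∑ i, g i :=
    Finset.sum_congr rfl (fun i _ => Real.sq_sqrt (hg i))
  rw [h5, h6] at h4
  exact h3.trans h4

/-- Base case of the induction: rank-one data. -/
theorem base_rank_one {Z : Type*} [Fintype Z] (e ξ : Z → ℝ) (s : ℝ) :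
    ∑ q, ∑ q', ξ q * ξ q' * (e q * e q' * s) = s * (∑ q, ξ q * e q) ^ 2 := by
  rw [sq, Finset.sum_mul_sum, Finset.mul_sum]
  refine Finset.sum_congr rfl (fun q _ => ?_)
  rw [Finset.mul_sum]
  refine Finset.sum_congr rfl (fun q' _ => ?_)
  ring

theorem base_lin {Z : Type*} [Fintype Z] (e ξ : Z → ℝ) (s : ℝ) :
    ∑ q, ξ q * (e q * s) = s * ∑ q, ξ q * e q := by
  rw [Finset.mul_sum]
  refine Finset.sum_congr rfl (fun q _ => ?_)
  ring

/-- The abstract Cauchy-Schwarz induction. -/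
theorem cs_abstract {Z V : Type*} [Fintype Z] [Fintype V]
    (k : V → V → Z → Z → ℝ) (d : V → V → ℝ) (M : ℕ → V → Z → Z → ℝ) (a : ℕ → V → Z → ℝ)
    (c : ℕ → V → ℝ) (e : Z → ℝ) (s : V → ℝ)
    (hk0 : ∀ v v1 q q1, 0 ≤ k v v1 q q1) (hd0 : ∀ v v1, 0 ≤ d v v1)
    (hkd : ∀ v v1 q, ∑ q1, k v v1 q q1 = d v v1)
    (hc0 : ∀ t v, 0 ≤ c t v)
    (hM : ∀ t v1 q1 q1', M (t + 1) v1 q1 q1'
      = ∑ q, ∑ q', ∑ v, M t v q q' * (k v v1 q q1 * k v v1 q' q1' / d v v1))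
    (ha : ∀ t v1 q1, a (t + 1) v1 q1 = ∑ q, ∑ v, a t v q * k v v1 q q1)
    (hc : ∀ t v1, c (t + 1) v1 = ∑ v, c t v * d v v1)
    (hs : ∀ v, s v = 0 ∨ s v = 1)
    (hM0 : ∀ v q q', M 0 v q q' = e q * e q' * s v)
    (ha0 : ∀ v q, a 0 v q = e q * s v)
    (hcz : ∀ v, c 0 v = s v) :
    ∀ (t : ℕ) (v : V) (ξ : Z → ℝ), 0 ≤ ∑ q, ∑ q', ξ q * ξ q' * M t v q q' ∧
      (∑ q, ξ q * a t v q) ^ 2 ≤ c t v * ∑ q, ∑ q', ξ q * ξ q' * M t v q q' := by
  intro t
  induction t with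
  | zero =>
    intro v ξ
    have hA : ∑ q, ∑ q', ξ q * ξ q' * M 0 v q q' = s v * (∑ q, ξ q * e q) ^ 2 := by
      rw [← base_rank_one e ξ (s v)]
      refine Finset.sum_congr rfl (fun q _ => Finset.sum_congr rfl (fun q' _ => ?_))
      rw [hM0]
    have hB : ∑ q, ξ q * a 0 v q = s v * ∑ q, ξ q * e q := by
      rw [← base_lin e ξ (s v)]
      refine Finset.sum_congr rfl (fun q _ => ?_)
      rw [ha0]
    rw [hA, hB, hcz]
    rcases hs v with h0 | h1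
    · rw [h0]
      constructor
      · rw [zero_mul]
      · norm_num
    · rw [h1]
      constructor
      · rw [one_mul]
        exact sq_nonneg _
      · rw [one_mul, one_mul, one_mul]
  | succ t ih =>
    intro v1 ξ
    have hE1 : ∑ q1, ∑ q1', ξ q1 * ξ q1' * M (t + 1) v1 q1 q1'
        = ∑ v, (∑ q, ∑ q', (∑ q1, ξ q1 * k v v1 q q1) * (∑ q1', ξ q1' * k v v1 q' q1')
            * M t v q q') / d v v1 := by
      rw [← e1 (M t) (fun v => k v v1) (fun v => d v v1) ξ]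
      refine Finset.sum_congr rfl (fun q1 _ => Finset.sum_congr rfl (fun q1' _ => ?_))
      rw [hM]
    have hE2 : ∑ q1, ξ q1 * a (t + 1) v1 q1
        = ∑ v, ∑ q, (∑ q1, ξ q1 * k v v1 q q1) * a t v q := by
      rw [← e2 (a t) (fun v => k v v1) ξ]
      refine Finset.sum_congr rfl (fun q1 _ => ?_)
      rw [ha]
    have hZ0 : ∀ v, 0 ≤ ∑ q, ∑ q', (∑ q1, ξ q1 * k v v1 q q1)
        * (∑ q1', ξ q1' * k v v1 q' q1') * M t v q q' :=
      fun v => (ih v (fun q => ∑ q1, ξ q1 * k v v1 q q1)).1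
    have hIH : ∀ v, (∑ q, (∑ q1, ξ q1 * k v v1 q q1) * a t v q) ^ 2 ≤ c t v *
        ∑ q, ∑ q', (∑ q1, ξ q1 * k v v1 q q1) * (∑ q1', ξ q1' * k v v1 q' q1')
          * M t v q q' :=
      fun v => (ih v (fun q => ∑ q1, ξ q1 * k v v1 q q1)).2
    refine ⟨?_, ?_⟩
    · rw [hE1]
      exact Finset.sum_nonneg (fun v _ => div_nonneg (hZ0 v) (hd0 v v1))
    · rw [hE1, hE2, hc]
      refine wcs _ _ _ (fun v => mul_nonneg (hc0 t v) (hd0 v v1))
        (fun v => div_nonneg (hZ0 v) (hd0 v v1)) (fun v => ?_)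
      by_cases hd : d v v1 = 0
      · have hk : ∀ q q1, k v v1 q q1 = 0 := by
          intro q q1
          have hsum := hkd v v1 q
          rw [hd] at hsum
          exact (Finset.sum_eq_zero_iff_of_nonneg (fun x _ => hk0 v v1 q x)).mp hsum q1
            (Finset.mem_univ _)
        have hX : ∑ q, (∑ q1, ξ q1 * k v v1 q q1) * a t v q = 0 := by
          refine Finset.sum_eq_zero (fun q _ => ?_)
          have h0 : ∑ q1, ξ q1 * k v v1 q q1 = 0 :=
            Finset.sum_eq_zero (fun q1 _ => by rw [hk q q1, mul_zero])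
          rw [h0, zero_mul]
        rw [hX, hd, mul_zero, zero_mul]
        norm_num
      · have hfg : c t v * d v v1 * ((∑ q, ∑ q', (∑ q1, ξ q1 * k v v1 q q1)
            * (∑ q1', ξ q1' * k v v1 q' q1') * M t v q q') / d v v1)
            = c t v * ∑ q, ∑ q', (∑ q1, ξ q1 * k v v1 q q1)
              * (∑ q1', ξ q1' * k v v1 q' q1') * M t v q q' := by
          field_simp
        rw [hfg]
        exact hIH v

theorem single_sum {Z : Type*} [Fintype Z] [DecidableEq Z] (f : Z → ℝ) (q : Z) :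
    ∑ x, (if x = q then (1 : ℝ) else 0) * f x = f q := by
  simp

theorem single_sum2 {Z : Type*} [Fintype Z] [DecidableEq Z] (F : Z → Z → ℝ) (q q' : Z) :
    ∑ x, ∑ y, (if x = q then (1 : ℝ) else 0) * (if y = q' then (1 : ℝ) else 0) * F x y
      = F q q' := by
  simp

theorem diff_sum2 {Z : Type*} [Fintype Z] [DecidableEq Z] (F : Z → Z → ℝ) (q q' : Z) :
    ∑ x, ∑ y, ((if x = q then (1 : ℝ) else 0) - (if x = q' then (1 : ℝ) else 0))
        * ((if y = q then (1 : ℝ) else 0) - (if y = q' then (1 : ℝ) else 0)) * F x y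
      = F q q - F q q' - F q' q + F q' q' := by
  have hexp : ∀ x y, ((if x = q then (1 : ℝ) else 0) - (if x = q' then (1 : ℝ) else 0))
        * ((if y = q then (1 : ℝ) else 0) - (if y = q' then (1 : ℝ) else 0)) * F x y
      = (if x = q then (1 : ℝ) else 0) * (if y = q then (1 : ℝ) else 0) * F x y
        - (if x = q then (1 : ℝ) else 0) * (if y = q' then (1 : ℝ) else 0) * F x y
        - (if x = q' then (1 : ℝ) else 0) * (if y = q then (1 : ℝ) else 0) * F x y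
        + (if x = q' then (1 : ℝ) else 0) * (if y = q' then (1 : ℝ) else 0) * F x y := by
    intro x y
    ring
  rw [Finset.sum_congr rfl (fun x _ => Finset.sum_congr rfl (fun y _ => hexp x y))]
  simp only [Finset.sum_add_distrib, Finset.sum_sub_distrib]
  rw [single_sum2 F q q, single_sum2 F q q', single_sum2 F q' q, single_sum2 F q' q']

theorem two_le_of_real (A B C D : ℝ) (h0 : 0 ≤ A - B - C + D) (hCB : C = B) :
    2 * B ≤ A + D := by
  linarith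

/-! The two-walker kernel. -/

/-- The Cauchy-Schwarz induction for the two-walker kernel: both statements at once. -/
theorem cs_main (h j : ℕ) [NeZero h] (p : ZMod (2 * h)) (w : Fin j → ZMod (2 * h)) :
    ∀ (t : ℕ) (v : Fin j → ZMod (2 * h)) (ξ : ZMod (2 * h) → ℝ),
      0 ≤ ∑ q : ZMod (2 * h), ∑ q' : ZMod (2 * h), ξ q * ξ q'
        * (Qmat h j ^ t) (Fin.cons p (Fin.cons p w)) (Fin.cons q (Fin.cons q' v)) ∧
      (∑ q : ZMod (2 * h), ξ q * (Kmat h (j + 1) ^ t) (Fin.cons p w) (Fin.cons q v)) ^ 2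
        ≤ (Kmat h j ^ t) w v * ∑ q : ZMod (2 * h), ∑ q' : ZMod (2 * h), ξ q * ξ q'
          * (Qmat h j ^ t) (Fin.cons p (Fin.cons p w)) (Fin.cons q (Fin.cons q' v)) := by
  refine cs_abstract
    (fun (v v1 : Fin j → ZMod (2 * h)) (q q1 : ZMod (2 * h)) =>
      Kmat h (j + 1) (Fin.cons q v) (Fin.cons q1 v1))
    (fun (v v1 : Fin j → ZMod (2 * h)) => Kmat h j v v1)
    (fun (t : ℕ) (v : Fin j → ZMod (2 * h)) (q q' : ZMod (2 * h)) =>
      (Qmat h j ^ t) (Fin.cons p (Fin.cons p w)) (Fin.cons q (Fin.cons q' v)))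
    (fun (t : ℕ) (v : Fin j → ZMod (2 * h)) (q : ZMod (2 * h)) =>
      (Kmat h (j + 1) ^ t) (Fin.cons p w) (Fin.cons q v))
    (fun (t : ℕ) (v : Fin j → ZMod (2 * h)) => (Kmat h j ^ t) w v)
    (fun q : ZMod (2 * h) => if p = q then (1 : ℝ) else 0)
    (fun v : Fin j → ZMod (2 * h) => if w = v then (1 : ℝ) else 0)
    ?_ ?_ ?_ ?_ ?_ ?_ ?_ ?_ ?_ ?_ ?_
  · intro v v1 q q1
    exact H95.stepProb_nonneg h (j + 1) _ _
  · intro v v1
    exact H95.stepProb_nonneg h j _ _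
  · intro v v1 q
    exact H43.step_tail h j (Fin.cons q v) v1
  · intro t v
    exact H95.Kmat_pow_nonneg h j t w v
  · intro t v1 q1 q1'
    show (Qmat h j ^ (t + 1)) (Fin.cons p (Fin.cons p w)) (Fin.cons q1 (Fin.cons q1' v1))
      = ∑ q : ZMod (2 * h), ∑ q' : ZMod (2 * h), ∑ v : Fin j → ZMod (2 * h),
        (Qmat h j ^ t) (Fin.cons p (Fin.cons p w)) (Fin.cons q (Fin.cons q' v))
          * (Kmat h (j + 1) (Fin.cons q v) (Fin.cons q1 v1)
            * Kmat h (j + 1) (Fin.cons q' v) (Fin.cons q1' v1) / Kmat h j v v1)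
    rw [pow_succ, Matrix.mul_apply, H23.sum_fin_succ_fun]
    refine Finset.sum_congr rfl (fun q _ => ?_)
    rw [H23.sum_fin_succ_fun]
    rfl
  · intro t v1 q1
    show (Kmat h (j + 1) ^ (t + 1)) (Fin.cons p w) (Fin.cons q1 v1)
      = ∑ q : ZMod (2 * h), ∑ v : Fin j → ZMod (2 * h),
        (Kmat h (j + 1) ^ t) (Fin.cons p w) (Fin.cons q v)
          * Kmat h (j + 1) (Fin.cons q v) (Fin.cons q1 v1)
    rw [pow_succ, Matrix.mul_apply, H23.sum_fin_succ_fun]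
  · intro t v1
    show (Kmat h j ^ (t + 1)) w v1 = ∑ v : Fin j → ZMod (2 * h), (Kmat h j ^ t) w v * Kmat h j v v1
    rw [pow_succ, Matrix.mul_apply]
  · intro v
    by_cases hv : w = v
    · right
      exact if_pos hv
    · left
      exact if_neg hv
  · intro v q q'
    show (Qmat h j ^ 0) (Fin.cons p (Fin.cons p w)) (Fin.cons q (Fin.cons q' v))
      = (if p = q then (1 : ℝ) else 0) * (if p = q' then (1 : ℝ) else 0)
        * (if w = v then (1 : ℝ) else 0)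
    rw [pow_zero, Matrix.one_apply]
    have hiff : (Fin.cons p (Fin.cons p w) : Fin (j + 2) → ZMod (2 * h))
        = Fin.cons q (Fin.cons q' v) ↔ (p = q ∧ p = q' ∧ w = v) := by
      rw [Fin.cons_inj, Fin.cons_inj]
    by_cases h1 : p = q <;> by_cases h2 : p = q' <;> by_cases h3 : w = v <;>
      simp [hiff, h1, h2, h3]
  · intro v q
    show (Kmat h (j + 1) ^ 0) (Fin.cons p w) (Fin.cons q v)
      = (if p = q then (1 : ℝ) else 0) * (if w = v then (1 : ℝ) else 0)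
    rw [pow_zero, Matrix.one_apply]
    have hiff : (Fin.cons p w : Fin (j + 1) → ZMod (2 * h)) = Fin.cons q v ↔ (p = q ∧ w = v) :=
      Fin.cons_inj
    by_cases h1 : p = q <;> by_cases h3 : w = v <;> simp [hiff, h1, h3]
  · intro v
    show (Kmat h j ^ 0) w v = if w = v then (1 : ℝ) else 0
    rw [pow_zero, Matrix.one_apply]

/-- Pool job P162-CV4, first statement. -/
theorem Qpow_psd (h j : ℕ) [NeZero h] (t : ℕ) (p : ZMod (2 * h)) (w v : Fin j → ZMod (2 * h))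
    (ξ : ZMod (2 * h) → ℝ) :
    0 ≤ ∑ q : ZMod (2 * h), ∑ q' : ZMod (2 * h), ξ q * ξ q'
      * (Qmat h j ^ t) (Fin.cons p (Fin.cons p w)) (Fin.cons q (Fin.cons q' v)) :=
  (cs_main h j p w t v ξ).1

/-- Pool job P162-CV4, second statement. -/
theorem cs_prop (h j : ℕ) [NeZero h] (t : ℕ) (p : ZMod (2 * h)) (w v : Fin j → ZMod (2 * h))
    (ξ : ZMod (2 * h) → ℝ) :
    (∑ q : ZMod (2 * h), ξ q * (Kmat h (j + 1) ^ t) (Fin.cons p w) (Fin.cons q v)) ^ 2
      ≤ (Kmat h j ^ t) w v * ∑ q : ZMod (2 * h), ∑ q' : ZMod (2 * h), ξ q * ξ q'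
        * (Qmat h j ^ t) (Fin.cons p (Fin.cons p w)) (Fin.cons q (Fin.cons q' v)) :=
  (cs_main h j p w t v ξ).2

/-- Pool job P162-CV4, third statement. -/
theorem diag_cs (h j : ℕ) [NeZero h] (t : ℕ) (p q : ZMod (2 * h)) (w v : Fin j → ZMod (2 * h)) :
    ((Kmat h (j + 1) ^ t) (Fin.cons p w) (Fin.cons q v)) ^ 2
      ≤ (Kmat h j ^ t) w v
        * (Qmat h j ^ t) (Fin.cons p (Fin.cons p w)) (Fin.cons q (Fin.cons q v)) := by
  have h1 : (∑ x : ZMod (2 * h), (if x = q then (1 : ℝ) else 0)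
        * (Kmat h (j + 1) ^ t) (Fin.cons p w) (Fin.cons x v)) ^ 2
      ≤ (Kmat h j ^ t) w v * ∑ x : ZMod (2 * h), ∑ y : ZMod (2 * h),
        (if x = q then (1 : ℝ) else 0) * (if y = q then (1 : ℝ) else 0)
          * (Qmat h j ^ t) (Fin.cons p (Fin.cons p w)) (Fin.cons x (Fin.cons y v)) :=
    cs_prop h j t p w v (fun x => if x = q then (1 : ℝ) else 0)
  rw [single_sum (fun x => (Kmat h (j + 1) ^ t) (Fin.cons p w) (Fin.cons x v)) q,
    single_sum2 (fun x y => (Qmat h j ^ t) (Fin.cons p (Fin.cons p w))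
      (Fin.cons x (Fin.cons y v))) q q] at h1
  exact h1

/-- Pool job P162-CV4, fourth statement, with the swap symmetry (job CV3) as a hypothesis. -/
theorem Qpow_two_le_of (h j : ℕ) [NeZero h]
    (hswap : ∀ (t : ℕ) (p p' q q' : ZMod (2 * h)) (w v : Fin j → ZMod (2 * h)),
      (Qmat h j ^ t) (Fin.cons p (Fin.cons p' w)) (Fin.cons q (Fin.cons q' v))
        = (Qmat h j ^ t) (Fin.cons p' (Fin.cons p w)) (Fin.cons q' (Fin.cons q v)))
    (t : ℕ) (p q q' : ZMod (2 * h)) (w v : Fin j → ZMod (2 * h)) :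
    2 * (Qmat h j ^ t) (Fin.cons p (Fin.cons p w)) (Fin.cons q (Fin.cons q' v))
      ≤ (Qmat h j ^ t) (Fin.cons p (Fin.cons p w)) (Fin.cons q (Fin.cons q v))
        + (Qmat h j ^ t) (Fin.cons p (Fin.cons p w)) (Fin.cons q' (Fin.cons q' v)) := by
  have h1 : 0 ≤ ∑ x : ZMod (2 * h), ∑ y : ZMod (2 * h),
      ((if x = q then (1 : ℝ) else 0) - (if x = q' then (1 : ℝ) else 0))
        * ((if y = q then (1 : ℝ) else 0) - (if y = q' then (1 : ℝ) else 0))
        * (Qmat h j ^ t) (Fin.cons p (Fin.cons p w)) (Fin.cons x (Fin.cons y v)) :=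
    Qpow_psd h j t p w v
      (fun x => (if x = q then (1 : ℝ) else 0) - (if x = q' then (1 : ℝ) else 0))
  rw [diff_sum2 (fun x y => (Qmat h j ^ t) (Fin.cons p (Fin.cons p w))
    (Fin.cons x (Fin.cons y v))) q q'] at h1
  exact two_le_of_real _ _ _ _ h1 (hswap t p p q' q w v)

end Vale.Agent.Lib.P162.H78CV4
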