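import Mathlib
import Vale.Agent.Lib.P162.Defs
import Vale.Agent.Lib.P162.RDefs
import Vale.Agent.Lib.P162.CVDefs
import Vale.Agent.Lib.P162.helper93.Gap
import Vale.Agent.Lib.P162.helper95.KmatBasic
import Vale.Agent.Lib.P162.helper36.MoveInj

/-!
Thorp shuffle, pool job P162-CV10 (backup copy by helper78): the Doeblin minorization
minor_of. From any two positions off the old cards the two walkers of the two-walker kernel
sit in the same position at time 7 L + 1 with probability at least 1 / (16 h), where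
L = Nat.clog 2 (2 h). The statement takes the results of the other CV jobs as hypotheses.
-/

namespace Vale.Agent.Lib.P162.H78CV

open Finset BigOperators

/-- Support propagation along the powers of a matrix. -/
theorem supp_pow {S : Type*} [Fintype S] [DecidableEq S] (A : Matrix S S ℝ) (G : S → Prop)
    (hG : ∀ a b, G a → A a b ≠ 0 → G b) :
    ∀ (N : ℕ) (a b : S), G a → (A ^ N) a b ≠ 0 → G b := by
  intro N
  induction N with
  | zero =>
    intro a b ha hne
    rw [pow_zero, Matrix.one_apply] at hne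
    by_cases hab : a = b
    · rw [← hab]
      exact ha
    · rw [if_neg hab] at hne
      exact absurd rfl hne
  | succ N ih =>
    intro a b ha hne
    obtain ⟨x, hx1, hx2⟩ := H93.H93_pow_succ_ne_zero A N a b hne
    exact hG x b (ih a x ha hx1) hx2

/-- Entrywise comparison of the powers of a killed matrix with the powers of a matrix that
dominates it on the good states. -/
theorem cmp_pow {S : Type*} [Fintype S] [DecidableEq S] (A Q : Matrix S S ℝ) (G T : S → Prop)
    (hA0 : ∀ a b, 0 ≤ A a b) (hQ0 : ∀ (N : ℕ) (a b : S), 0 ≤ (Q ^ N) a b)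
    (hG : ∀ a b, G a → A a b ≠ 0 → G b) (hGT : ∀ a, G a → T a)
    (hAQ : ∀ a b, G a → T b → A a b ≤ Q a b) :
    ∀ (N : ℕ) (a b : S), G a → T b → (A ^ N) a b ≤ (Q ^ N) a b := by
  intro N
  induction N with
  | zero =>
    intro a b _ _
    rw [pow_zero, pow_zero]
  | succ N ih =>
    intro a b ha hb
    rw [pow_succ', pow_succ', Matrix.mul_apply, Matrix.mul_apply]
    refine Finset.sum_le_sum (fun c _ => ?_)
    have hQ1 : 0 ≤ Q a c := by
      have h1 := hQ0 1 a c
      rwa [pow_one] at h1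
    by_cases hAc : A a c = 0
    · rw [hAc, zero_mul]
      exact mul_nonneg hQ1 (hQ0 N c b)
    · have hc : G c := hG a c ha hAc
      exact mul_le_mul (hAQ a c ha (hGT c hc)) (ih c b hc hb)
        (H93.H93_pow_nonneg A hA0 N c b) hQ1

/-- The last step: the mass of the merged states at time N + 1 is at least one half of the
killed mass of the partner states at time N. -/
theorem last_step {S V X : Type*} [Fintype S] [DecidableEq S] [Fintype V] [Fintype X]
    (A Q : Matrix S S ℝ) (G T : S → Prop) (m : V → X → S) (Pt : Finset S)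
    (hA0 : ∀ a b, 0 ≤ A a b) (hQ0 : ∀ (N : ℕ) (a b : S), 0 ≤ (Q ^ N) a b)
    (hG : ∀ a b, G a → A a b ≠ 0 → G b) (hGT : ∀ a, G a → T a)
    (hAQ : ∀ a b, G a → T b → A a b ≤ Q a b)
    (hmerge : ∀ c, G c → c ∈ Pt → (1 / 2 : ℝ) ≤ ∑ v, ∑ x, Q c (m v x))
    (N : ℕ) (u : S) (hu : G u) :
    (1 / 2 : ℝ) * ∑ c ∈ Pt, (A ^ N) u c ≤ ∑ v, ∑ x, (Q ^ (N + 1)) u (m v x) := by
  have hQ1 : ∀ a c, 0 ≤ Q a c := by
    intro a c
    have h1 := hQ0 1 a c
    rwa [pow_one] at h1
  have hD0 : ∀ c, 0 ≤ ∑ v, ∑ x, Q c (m v x) :=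
    fun c => Finset.sum_nonneg (fun v _ => Finset.sum_nonneg (fun x _ => hQ1 c (m v x)))
  have hexp : ∑ v, ∑ x, (Q ^ (N + 1)) u (m v x)
      = ∑ c, (Q ^ N) u c * ∑ v, ∑ x, Q c (m v x) := by
    calc ∑ v, ∑ x, (Q ^ (N + 1)) u (m v x)
        = ∑ v, ∑ x, ∑ c, (Q ^ N) u c * Q c (m v x) := by
          refine Finset.sum_congr rfl (fun v _ => Finset.sum_congr rfl (fun x _ => ?_))
          rw [pow_succ, Matrix.mul_apply]
      _ = ∑ v, ∑ c, ∑ x, (Q ^ N) u c * Q c (m v x) := by
          refine Finset.sum_congr rfl (fun v _ => ?_)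
          exact Finset.sum_comm
      _ = ∑ c, ∑ v, ∑ x, (Q ^ N) u c * Q c (m v x) := Finset.sum_comm
      _ = ∑ c, (Q ^ N) u c * ∑ v, ∑ x, Q c (m v x) := by
          refine Finset.sum_congr rfl (fun c _ => ?_)
          rw [Finset.mul_sum]
          refine Finset.sum_congr rfl (fun v _ => ?_)
          rw [Finset.mul_sum]
  rw [hexp, Finset.mul_sum]
  calc ∑ c ∈ Pt, (1 / 2 : ℝ) * (A ^ N) u c
      ≤ ∑ c ∈ Pt, (Q ^ N) u c * ∑ v, ∑ x, Q c (m v x) := by
        refine Finset.sum_le_sum (fun c hc => ?_)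
        by_cases hAc : (A ^ N) u c = 0
        · rw [hAc, mul_zero]
          exact mul_nonneg (hQ0 N u c) (hD0 c)
        · have hGc : G c := supp_pow A G hG N u c hu hAc
          have h1 : (A ^ N) u c ≤ (Q ^ N) u c :=
            cmp_pow A Q G T hA0 hQ0 hG hGT hAQ N u c hu (hGT c hGc)
          have h2 := hmerge c hGc hc
          calc (1 / 2 : ℝ) * (A ^ N) u c = (A ^ N) u c * (1 / 2) := mul_comm _ _
            _ ≤ (Q ^ N) u c * ∑ v, ∑ x, Q c (m v x) :=
                mul_le_mul h1 h2 (by norm_num) (hQ0 N u c)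
    _ ≤ ∑ c, (Q ^ N) u c * ∑ v, ∑ x, Q c (m v x) := by
        refine Finset.sum_le_sum_of_subset_of_nonneg (Finset.subset_univ _) ?_
        intro c _ _
        exact mul_nonneg (hQ0 N u c) (hD0 c)

/-- The real arithmetic of the minorization constant. -/
theorem minor_arith (n l P : ℝ) (h1 : 1 ≤ l) (h2 : 15776 * l ^ 2 ≤ n) (h3 : n < 4 * P) :
    1 / (4 * n) ≤ 1 / (n - 1) - 2592 * l ^ 2 / n ^ 2
      - (1 / (n - 1) + 2592 * l ^ 2 / n ^ 2) / 2 - (7 * l) * (1 / P) ^ 2 / 2 := by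
  have hn0 : 15776 ≤ n := by nlinarith
  have hnpos : 0 < n := by linarith
  have hP : 0 < P := by linarith
  have e1 : 1 / n ≤ 1 / (n - 1) := one_div_le_one_div_of_le (by linarith) (by linarith)
  have e2 : (1 / P) ^ 2 ≤ 16 / n ^ 2 := by
    have h4 : 1 / P ≤ 4 / n := by
      rw [div_le_div_iff₀ hP hnpos]
      linarith
    have h0 : 0 ≤ 1 / P := by positivity
    calc (1 / P) ^ 2 ≤ (4 / n) ^ 2 := pow_le_pow_left₀ h0 h4 2
      _ = 16 / n ^ 2 := by ring
  have e4 : l ^ 2 / n ^ 2 ≤ (1 / n) / 15776 := by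
    rw [div_div, div_le_div_iff₀ (by positivity) (by positivity)]
    nlinarith [mul_le_mul_of_nonneg_right h2 hnpos.le]
  have e5 : l * (1 / P) ^ 2 ≤ 16 * ((1 / n) / 15776) := by
    have h5 : l * (1 / P) ^ 2 ≤ l * (16 / n ^ 2) :=
      mul_le_mul_of_nonneg_left e2 (by linarith)
    have h6 : l * (16 / n ^ 2) ≤ 16 * (l ^ 2 / n ^ 2) := by
      have h7 : l * (16 / n ^ 2) = 16 * (l / n ^ 2) := by ring
      have h8 : l / n ^ 2 ≤ l ^ 2 / n ^ 2 := by
        apply div_le_div_of_nonneg_right _ (by positivity)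
        nlinarith
      rw [h7]
      linarith
    linarith
  have e6 : 2592 * l ^ 2 / n ^ 2 = 2592 * (l ^ 2 / n ^ 2) := by ring
  have e7 : 1 / (4 * n) = (1 / n) / 4 := by
    rw [div_div, mul_comm]
  have e8 : (7 * l) * (1 / P) ^ 2 / 2 = 7 * (l * (1 / P) ^ 2) / 2 := by ring
  rw [e6, e7, e8]
  linarith

/-- Pool job P162-CV10: the Doeblin minorization, with the results of the other CV jobs as
hypotheses. -/
theorem minor_of (h j : ℕ) [NeZero h]
    (hQnn : ∀ (t : ℕ) (u y : Fin (j + 2) → ZMod (2 * h)), 0 ≤ (Qmat h j ^ t) u y)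
    (hdef : ∀ (t : ℕ) (p : ZMod (2 * h)) (w : Fin j → ZMod (2 * h)),
      Function.Injective (Fin.cons p w : Fin (j + 1) → ZMod (2 * h)) →
      (defect h j t (Fin.cons p w)) ^ 2
        ≤ ((2 * h : ℝ) - j) * Dcol h j t (Fin.cons p (Fin.cons p w)) - 1)
    (hQK : ∀ (u y : Fin (j + 2) → ZMod (2 * h)), Function.Injective u → y 0 ≠ y 1 →
      (if u 1 = u 0 + (h : ZMod (2 * h)) then (1 / 2 : ℝ) else 1) * Kmat h (j + 2) u y
        ≤ Qmat h j u y)
    (hmerge : ∀ (u : Fin (j + 2) → ZMod (2 * h)), Function.Injective u →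
      u 1 = u 0 + (h : ZMod (2 * h)) →
      (1 / 2 : ℝ) ≤ ∑ v : Fin j → ZMod (2 * h), ∑ x : ZMod (2 * h),
        Qmat h j u (Fin.cons x (Fin.cons x v) : Fin (j + 2) → ZMod (2 * h)))
    (hreach : ∀ (u : Fin (j + 2) → ZMod (2 * h)), u 0 ≠ u 1 →
      1 / ((2 * h : ℝ) - 1) - 2592 * (Nat.clog 2 (2 * h) : ℝ) ^ 2 / (2 * h : ℝ) ^ 2
          - (1 / ((2 * h : ℝ) - 1) + 2592 * (Nat.clog 2 (2 * h) : ℝ) ^ 2 / (2 * h : ℝ) ^ 2) / 2
          - ((7 * Nat.clog 2 (2 * h) : ℕ) : ℝ) * (1 / 2 ^ Nat.log 2 h) ^ 2 / 2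
        ≤ ∑ b ∈ univ.filter (fun y : Fin (j + 2) → ZMod (2 * h) =>
              y 1 = y 0 + (h : ZMod (2 * h))),
            ((Matrix.of fun (a b : Fin (j + 2) → ZMod (2 * h)) =>
              (if a 1 = a 0 + (h : ZMod (2 * h)) then (1 / 2 : ℝ) else 1)
                * Kmat h (j + 2) a b) ^ (7 * Nat.clog 2 (2 * h))) u b)
    (hn : 15776 * Nat.clog 2 (2 * h) ^ 2 ≤ 2 * h)
    (v : Fin j → ZMod (2 * h)) (q q' : ZMod (2 * h)) (hv : Function.Injective v)
    (hq : ∀ i, q ≠ v i) (hq' : ∀ i, q' ≠ v i) :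
    1 / (16 * (h : ℝ))
      ≤ Dcol h j (7 * Nat.clog 2 (2 * h) + 1) (Fin.cons q (Fin.cons q' v)) := by
  classical
  have hh : 0 < h := Nat.pos_of_ne_zero (NeZero.ne h)
  have hhr : (1 : ℝ) ≤ (h : ℝ) := by exact_mod_cast hh
  have hL : 1 ≤ Nat.clog 2 (2 * h) := Nat.clog_pos (by norm_num) (by omega)
  have hinj' : Function.Injective (Fin.cons q' v : Fin (j + 1) → ZMod (2 * h)) := by
    rw [Fin.cons_injective_iff]
    refine ⟨?_, hv⟩
    rintro ⟨i, hi⟩
    exact hq' i hi.symm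
  by_cases hqq : q = q'
  · -- the two walkers start in the same position
    subst hqq
    have h1 := hdef (7 * Nat.clog 2 (2 * h) + 1) q v hinj'
    have h2 := sq_nonneg (defect h j (7 * Nat.clog 2 (2 * h) + 1) (Fin.cons q v))
    have hcard : j + 1 ≤ 2 * h := by
      have h3 := Fintype.card_le_of_injective _ hinj'
      rwa [Fintype.card_fin, ZMod.card] at h3
    have hjr : (j : ℝ) + 1 ≤ 2 * (h : ℝ) := by exact_mod_cast hcard
    have hj0 : (0 : ℝ) ≤ (j : ℝ) := Nat.cast_nonneg j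
    generalize Dcol h j (7 * Nat.clog 2 (2 * h) + 1) (Fin.cons q (Fin.cons q v)) = D at h1 ⊢
    generalize defect h j (7 * Nat.clog 2 (2 * h) + 1) (Fin.cons q v) = E at h1 h2
    have hm : 0 < 2 * (h : ℝ) - j := by linarith
    have h3 : 1 ≤ (2 * (h : ℝ) - j) * D := by linarith
    have hD0 : 0 < D := by
      by_contra hneg
      have hneg' : D ≤ 0 := not_lt.mp hneg
      nlinarith
    have h4 : 1 ≤ (2 * (h : ℝ)) * D := by nlinarith [mul_nonneg hj0 hD0.le]
    rw [div_le_iff₀ (by positivity)]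
    nlinarith
  · -- the two walkers start in different positions
    have hu : Function.Injective (Fin.cons q (Fin.cons q' v) : Fin (j + 2) → ZMod (2 * h)) := by
      rw [Fin.cons_injective_iff]
      refine ⟨?_, hinj'⟩
      rintro ⟨i, hi⟩
      induction i using Fin.cases with
      | zero =>
        rw [Fin.cons_zero] at hi
        exact hqq hi.symm
      | succ i =>
        rw [Fin.cons_succ] at hi
        exact hq i hi.symm
    have hu01 : (Fin.cons q (Fin.cons q' v) : Fin (j + 2) → ZMod (2 * h)) 0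
        ≠ (Fin.cons q (Fin.cons q' v) : Fin (j + 2) → ZMod (2 * h)) 1 := by
      rw [Fin.cons_zero, Fin.cons_one, Fin.cons_zero]
      exact hqq
    have hA0 : ∀ a b : Fin (j + 2) → ZMod (2 * h),
        0 ≤ (Matrix.of fun (a b : Fin (j + 2) → ZMod (2 * h)) =>
          (if a 1 = a 0 + (h : ZMod (2 * h)) then (1 / 2 : ℝ) else 1)
            * Kmat h (j + 2) a b) a b := by
      intro a b
      show 0 ≤ (if a 1 = a 0 + (h : ZMod (2 * h)) then (1 / 2 : ℝ) else 1) * Kmat h (j + 2) a b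
      refine mul_nonneg ?_ (H95.stepProb_nonneg h (j + 2) a b)
      by_cases hc : a 1 = a 0 + (h : ZMod (2 * h))
      · rw [if_pos hc]
        norm_num
      · rw [if_neg hc]
        norm_num
    have hG : ∀ a b : Fin (j + 2) → ZMod (2 * h), Function.Injective a →
        (Matrix.of fun (a b : Fin (j + 2) → ZMod (2 * h)) =>
          (if a 1 = a 0 + (h : ZMod (2 * h)) then (1 / 2 : ℝ) else 1)
            * Kmat h (j + 2) a b) a b ≠ 0 → Function.Injective b := by
      intro a b ha hne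
      have hK : stepProb h (j + 2) a b ≠ 0 := by
        intro h0
        apply hne
        show (if a 1 = a 0 + (h : ZMod (2 * h)) then (1 / 2 : ℝ) else 1)
          * stepProb h (j + 2) a b = 0
        rw [h0, mul_zero]
      obtain ⟨c, hc⟩ := H93.H93_step_witness h (j + 2) a b hK
      have hb : b = fun i => move h c (a i) := funext (fun i => (hc i).symm)
      rw [hb]
      exact (H36.move_injective h c).comp ha
    have hGT : ∀ a : Fin (j + 2) → ZMod (2 * h), Function.Injective a → a 0 ≠ a 1 :=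
      fun a ha h01 => Fin.zero_ne_one (ha h01)
    have hAQ : ∀ a b : Fin (j + 2) → ZMod (2 * h), Function.Injective a → b 0 ≠ b 1 →
        (Matrix.of fun (a b : Fin (j + 2) → ZMod (2 * h)) =>
          (if a 1 = a 0 + (h : ZMod (2 * h)) then (1 / 2 : ℝ) else 1)
            * Kmat h (j + 2) a b) a b ≤ Qmat h j a b :=
      fun a b ha hb => hQK a b ha hb
    have hmerge' : ∀ c : Fin (j + 2) → ZMod (2 * h), Function.Injective c →
        c ∈ univ.filter (fun y : Fin (j + 2) → ZMod (2 * h) => y 1 = y 0 + (h : ZMod (2 * h))) →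
        (1 / 2 : ℝ) ≤ ∑ v : Fin j → ZMod (2 * h), ∑ x : ZMod (2 * h),
          Qmat h j c ((fun (v : Fin j → ZMod (2 * h)) (x : ZMod (2 * h)) =>
            (Fin.cons x (Fin.cons x v) : Fin (j + 2) → ZMod (2 * h))) v x) :=
      fun c hc hcP => hmerge c hc (Finset.mem_filter.mp hcP).2
    have hLS := last_step
      (Matrix.of fun (a b : Fin (j + 2) → ZMod (2 * h)) =>
        (if a 1 = a 0 + (h : ZMod (2 * h)) then (1 / 2 : ℝ) else 1) * Kmat h (j + 2) a b)
      (Qmat h j) Function.Injective (fun b : Fin (j + 2) → ZMod (2 * h) => b 0 ≠ b 1)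
      (fun (v : Fin j → ZMod (2 * h)) (x : ZMod (2 * h)) =>
        (Fin.cons x (Fin.cons x v) : Fin (j + 2) → ZMod (2 * h)))
      (univ.filter (fun y : Fin (j + 2) → ZMod (2 * h) => y 1 = y 0 + (h : ZMod (2 * h))))
      hA0 hQnn hG hGT hAQ hmerge' (7 * Nat.clog 2 (2 * h))
      (Fin.cons q (Fin.cons q' v)) hu
    have hR := hreach (Fin.cons q (Fin.cons q' v)) hu01
    have hl1 : (1 : ℝ) ≤ (Nat.clog 2 (2 * h) : ℝ) := by exact_mod_cast hL
    have hl2 : 15776 * (Nat.clog 2 (2 * h) : ℝ) ^ 2 ≤ 2 * (h : ℝ) := by exact_mod_cast hn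
    have hl3 : 2 * (h : ℝ) < 4 * (2 : ℝ) ^ (Nat.log 2 h) := by
      have hlt := Nat.lt_pow_succ_log_self (b := 2) (by norm_num) h
      have hlt' : ((h : ℕ) : ℝ) < ((2 ^ (Nat.log 2 h).succ : ℕ) : ℝ) := by exact_mod_cast hlt
      rw [Nat.cast_pow, Nat.cast_ofNat, pow_succ] at hlt'
      linarith
    have hcast : ((7 * Nat.clog 2 (2 * h) : ℕ) : ℝ) = 7 * (Nat.clog 2 (2 * h) : ℝ) := by
      push_cast
      ring
    have key : 1 / (4 * (2 * (h : ℝ)))
        ≤ ∑ b ∈ univ.filter (fun y : Fin (j + 2) → ZMod (2 * h) =>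
              y 1 = y 0 + (h : ZMod (2 * h))),
            ((Matrix.of fun (a b : Fin (j + 2) → ZMod (2 * h)) =>
              (if a 1 = a 0 + (h : ZMod (2 * h)) then (1 / 2 : ℝ) else 1)
                * Kmat h (j + 2) a b) ^ (7 * Nat.clog 2 (2 * h)))
              (Fin.cons q (Fin.cons q' v)) b := by
      refine le_trans ?_ hR
      rw [hcast]
      exact minor_arith _ _ _ hl1 hl2 hl3
    have hfin : 1 / (16 * (h : ℝ)) = (1 / 2 : ℝ) * (1 / (4 * (2 * (h : ℝ)))) := by
      field_simp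
      ring
    rw [hfin]
    exact le_trans (mul_le_mul_of_nonneg_left key (by norm_num)) hLS

end Vale.Agent.Lib.P162.H78CV
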